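import Vale.Agent.Lib.P123.helper23.UnitaryBound
import Vale.Agent.Lib.P123.helper23.FixedD
import Vale.Agent.Lib.P123.helper95.NumRange

/-!
# P123 (Crouzeix): closure for `A = V* + γ V`, `V` a non-unitary isometry, `|γ| < 1`

The two-by-two operator matrix `U = [[V, P], [0, V*]]` (`P = 1 - V V*`) is unitary, the normal
element `N = U* + γ U` has `A` in its upper left corner, and the row `[1, -D V*]` intertwines
`N` and `A`, where `D = γ (P + V D V*)`.  Hence `p(A) = p(N)₀₀ - D V* p(N)₁₀` and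
`‖p(A)‖ ≤ (1 + |γ|) sup |p|` over the numerical range of `A`.
-/

namespace Vale.Agent.Lib.P123.H94

open ContinuousLinearMap Polynomial

variable {H : Type*} [NormedAddCommGroup H] [InnerProductSpace ℂ H] [CompleteSpace H]

/-- the operator matrix `[[V, 1 - V V*], [0, V*]]` -/
noncomputable def Umat (V : H →L[ℂ] H) : CStarMatrix (Fin 2) (Fin 2) (H →L[ℂ] H) :=
  CStarMatrix.ofMatrix (Matrix.of ![![V, 1 - V * star V], ![0, star V]])

theorem Umat_00 (V : H →L[ℂ] H) : Umat V 0 0 = V := rfl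
theorem Umat_01 (V : H →L[ℂ] H) : Umat V 0 1 = 1 - V * star V := rfl
theorem Umat_10 (V : H →L[ℂ] H) : Umat V 1 0 = 0 := rfl
theorem Umat_11 (V : H →L[ℂ] H) : Umat V 1 1 = star V := rfl

theorem star_P (V : H →L[ℂ] H) : star (1 - V * star V) = 1 - V * star V := by
  rw [star_sub, star_one, star_mul, star_star]

theorem P_mul_V (V : H →L[ℂ] H) (hV : star V * V = 1) : (1 - V * star V) * V = 0 := by
  rw [sub_mul, one_mul, mul_assoc, hV, mul_one, sub_self]

theorem V_star_mul_P (V : H →L[ℂ] H) (hV : star V * V = 1) :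
    star V * (1 - V * star V) = 0 := by
  rw [mul_sub, mul_one, ← mul_assoc, hV, one_mul, sub_self]

theorem P_mul_P (V : H →L[ℂ] H) (hV : star V * V = 1) :
    (1 - V * star V) * (1 - V * star V) = 1 - V * star V := by
  rw [sub_mul, one_mul, mul_assoc, V_star_mul_P V hV, mul_zero, sub_zero]

theorem Umat_unitary (V : H →L[ℂ] H) (hV : star V * V = 1) :
    Umat V ∈ unitary (CStarMatrix (Fin 2) (Fin 2) (H →L[ℂ] H)) := by
  rw [Unitary.mem_iff]
  constructor
  · apply CStarMatrix.ext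
    intro i j
    rw [CStarMatrix.mul_apply, Fin.sum_univ_two, CStarMatrix.star_apply, CStarMatrix.star_apply,
      CStarMatrix.one_apply]
    fin_cases i <;> fin_cases j
    · show star (Umat V 0 0) * Umat V 0 0 + star (Umat V 1 0) * Umat V 1 0 = 1
      rw [Umat_00, Umat_10, hV, star_zero, zero_mul, add_zero]
    · show star (Umat V 0 0) * Umat V 0 1 + star (Umat V 1 0) * Umat V 1 1 = 0
      rw [Umat_00, Umat_01, Umat_10, V_star_mul_P V hV, star_zero, zero_mul, add_zero]
    · show star (Umat V 0 1) * Umat V 0 0 + star (Umat V 1 1) * Umat V 1 0 = 0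
      rw [Umat_00, Umat_01, Umat_10, star_P, P_mul_V V hV, mul_zero, add_zero]
    · show star (Umat V 0 1) * Umat V 0 1 + star (Umat V 1 1) * Umat V 1 1 = 1
      rw [Umat_01, Umat_11, star_P, P_mul_P V hV, star_star]
      abel
  · apply CStarMatrix.ext
    intro i j
    rw [CStarMatrix.mul_apply, Fin.sum_univ_two, CStarMatrix.star_apply, CStarMatrix.star_apply,
      CStarMatrix.one_apply]
    fin_cases i <;> fin_cases j
    · show Umat V 0 0 * star (Umat V 0 0) + Umat V 0 1 * star (Umat V 0 1) = 1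
      rw [Umat_00, Umat_01, star_P, P_mul_P V hV]
      abel
    · show Umat V 0 0 * star (Umat V 1 0) + Umat V 0 1 * star (Umat V 1 1) = 0
      rw [Umat_00, Umat_01, Umat_10, Umat_11, star_zero, mul_zero, zero_add, star_star,
        P_mul_V V hV]
    · show Umat V 1 0 * star (Umat V 0 0) + Umat V 1 1 * star (Umat V 0 1) = 0
      rw [Umat_10, Umat_11, Umat_01, zero_mul, zero_add, star_P, V_star_mul_P V hV]
    · show Umat V 1 0 * star (Umat V 1 0) + Umat V 1 1 * star (Umat V 1 1) = 1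
      rw [Umat_10, Umat_11, zero_mul, zero_add, star_star, hV]

/-- the normal element `N = U* + γ U` -/
noncomputable def Nmat (V : H →L[ℂ] H) (γ : ℂ) : CStarMatrix (Fin 2) (Fin 2) (H →L[ℂ] H) :=
  star (Umat V) + γ • Umat V

theorem Nmat_00 (V : H →L[ℂ] H) (γ : ℂ) : Nmat V γ 0 0 = star V + γ • V := by
  unfold Nmat
  rw [CStarMatrix.add_apply, CStarMatrix.star_apply, CStarMatrix.smul_apply, Umat_00]

theorem Nmat_01 (V : H →L[ℂ] H) (γ : ℂ) : Nmat V γ 0 1 = γ • (1 - V * star V) := by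
  unfold Nmat
  rw [CStarMatrix.add_apply, CStarMatrix.star_apply, CStarMatrix.smul_apply, Umat_10, Umat_01,
    star_zero, zero_add]

theorem Nmat_10 (V : H →L[ℂ] H) (γ : ℂ) : Nmat V γ 1 0 = 1 - V * star V := by
  unfold Nmat
  rw [CStarMatrix.add_apply, CStarMatrix.star_apply, CStarMatrix.smul_apply, Umat_10, Umat_01,
    star_P, smul_zero, add_zero]

theorem Nmat_11 (V : H →L[ℂ] H) (γ : ℂ) : Nmat V γ 1 1 = V + γ • star V := by
  unfold Nmat
  rw [CStarMatrix.add_apply, CStarMatrix.star_apply, CStarMatrix.smul_apply, Umat_11, star_star]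

/-- the first component of the row `[1, -E] M` -/
noncomputable def psi1 (E : H →L[ℂ] H) :
    CStarMatrix (Fin 2) (Fin 2) (H →L[ℂ] H) →ₗ[ℂ] (H →L[ℂ] H) where
  toFun M := M 0 0 - E * M 1 0
  map_add' M M' := by
    rw [CStarMatrix.add_apply, CStarMatrix.add_apply, mul_add]
    abel
  map_smul' c M := by
    rw [CStarMatrix.smul_apply, CStarMatrix.smul_apply, mul_smul_comm, ← smul_sub]
    rfl

/-- the second component of the row `[1, -E] M` -/
noncomputable def psi2 (E : H →L[ℂ] H) :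
    CStarMatrix (Fin 2) (Fin 2) (H →L[ℂ] H) →ₗ[ℂ] (H →L[ℂ] H) where
  toFun M := M 0 1 - E * M 1 1
  map_add' M M' := by
    rw [CStarMatrix.add_apply, CStarMatrix.add_apply, mul_add]
    abel
  map_smul' c M := by
    rw [CStarMatrix.smul_apply, CStarMatrix.smul_apply, mul_smul_comm, ← smul_sub]
    rfl

theorem psi1_apply (E : H →L[ℂ] H) (M : CStarMatrix (Fin 2) (Fin 2) (H →L[ℂ] H)) :
    psi1 E M = M 0 0 - E * M 1 0 := rfl

theorem psi2_apply (E : H →L[ℂ] H) (M : CStarMatrix (Fin 2) (Fin 2) (H →L[ℂ] H)) :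
    psi2 E M = M 0 1 - E * M 1 1 := rfl

/-- If the row `[1, -E]` intertwines `N` and `A`, then it does so after multiplying by any `M`. -/
theorem psi_mul (A E : H →L[ℂ] H) (N M : CStarMatrix (Fin 2) (Fin 2) (H →L[ℂ] H))
    (h1 : N 0 0 - E * N 1 0 = A) (h2 : N 0 1 - E * N 1 1 = -(A * E)) :
    psi1 E (N * M) = A * psi1 E M ∧ psi2 E (N * M) = A * psi2 E M := by
  have e1 : N 0 0 = A + E * N 1 0 := eq_add_of_sub_eq h1
  have e2 : N 0 1 = -(A * E) + E * N 1 1 := eq_add_of_sub_eq h2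
  constructor
  · rw [psi1_apply, psi1_apply, CStarMatrix.mul_apply, CStarMatrix.mul_apply, Fin.sum_univ_two,
      Fin.sum_univ_two, e1, e2]
    noncomm_ring
  · rw [psi2_apply, psi2_apply, CStarMatrix.mul_apply, CStarMatrix.mul_apply, Fin.sum_univ_two,
      Fin.sum_univ_two, e1, e2]
    noncomm_ring

theorem psi_pow (A E : H →L[ℂ] H) (N : CStarMatrix (Fin 2) (Fin 2) (H →L[ℂ] H))
    (h1 : N 0 0 - E * N 1 0 = A) (h2 : N 0 1 - E * N 1 1 = -(A * E)) (k : ℕ) :
    psi1 E (N ^ k) = A ^ k ∧ psi2 E (N ^ k) = -(A ^ k * E) := by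
  induction k with
  | zero =>
    constructor
    · rw [pow_zero, pow_zero, psi1_apply, CStarMatrix.one_apply, CStarMatrix.one_apply]
      simp
    · rw [pow_zero, pow_zero, psi2_apply, CStarMatrix.one_apply, CStarMatrix.one_apply]
      simp
  | succ k ih =>
    obtain ⟨m1, m2⟩ := psi_mul A E N (N ^ k) h1 h2
    constructor
    · rw [pow_succ', m1, ih.1, ← pow_succ']
    · rw [pow_succ', m2, ih.2, mul_neg, ← mul_assoc, ← pow_succ']

/-- `p(A) = p(N)₀₀ - E p(N)₁₀` for every polynomial `p`. -/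
theorem psi_aeval (A E : H →L[ℂ] H) (N : CStarMatrix (Fin 2) (Fin 2) (H →L[ℂ] H))
    (h1 : N 0 0 - E * N 1 0 = A) (h2 : N 0 1 - E * N 1 1 = -(A * E)) (p : Polynomial ℂ) :
    (Polynomial.aeval N p) 0 0 - E * (Polynomial.aeval N p) 1 0 = Polynomial.aeval A p := by
  rw [← psi1_apply, Polynomial.aeval_eq_sum_range, Polynomial.aeval_eq_sum_range, map_sum]
  refine Finset.sum_congr rfl fun k _ => ?_
  rw [map_smul, (psi_pow A E N h1 h2 k).1]

/-- the two intertwining identities for `N = U* + γ U` and `E = D V*` -/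
theorem intertwine (V : H →L[ℂ] H) (hV : star V * V = 1) (γ : ℂ) (D : H →L[ℂ] H)
    (hD : D = γ • ((1 - V * star V) + V * D * star V)) :
    Nmat V γ 0 0 - (D * star V) * Nmat V γ 1 0 = star V + γ • V ∧
      Nmat V γ 0 1 - (D * star V) * Nmat V γ 1 1 = -((star V + γ • V) * (D * star V)) := by
  have hVP := V_star_mul_P V hV
  have hSD : star V * D = γ • (D * star V) := by
    calc star V * D = star V * (γ • ((1 - V * star V) + V * D * star V)) := by rw [← hD]
      _ = γ • (D * star V) := by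
        rw [mul_smul_comm, mul_add, hVP, zero_add, ← mul_assoc, ← mul_assoc, hV, one_mul]
  have hsplit : D = γ • (1 - V * star V) + γ • (V * D * star V) := by
    rw [← smul_add]; exact hD
  have hPD : γ • (1 - V * star V) - D = -(γ • (V * D * star V)) := by
    calc γ • (1 - V * star V) - D
        = γ • (1 - V * star V) - (γ • (1 - V * star V) + γ • (V * D * star V)) := by
          rw [← hsplit]
      _ = -(γ • (V * D * star V)) := by abel
  constructor
  · rw [Nmat_00, Nmat_10, mul_assoc, hVP, mul_zero, sub_zero]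
  · rw [Nmat_01, Nmat_11]
    have e1 : (D * star V) * (V + γ • star V) = D + γ • (D * star V * star V) := by
      rw [mul_add, mul_smul_comm, mul_assoc D (star V) V, hV, mul_one]
    have e2 : (star V + γ • V) * (D * star V) =
        γ • (D * star V * star V) + γ • (V * D * star V) := by
      rw [add_mul, smul_mul_assoc, ← mul_assoc (star V) D (star V), hSD, smul_mul_assoc,
        ← mul_assoc V D (star V)]
    rw [e1, e2, sub_add_eq_sub_sub, hPD]
    abel

/-- **Crouzeix's inequality with constant `1 + |γ|` for `A = V* + γ V`**, `V` a non-unitary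
isometry of a complex Hilbert space and `|γ| < 1`: if `|p| ≤ M` on the numerical range of `A`,
then `‖p(A)‖ ≤ (1 + |γ|) M`. -/
theorem crouzeix_isometry (V : H →L[ℂ] H) (hV : star V * V = 1) (hVV : V * star V ≠ 1)
    (γ : ℂ) (hγ : ‖γ‖ < 1) (p : Polynomial ℂ) (M : ℝ)
    (hM : ∀ x : H, ‖x‖ = 1 → ‖p.eval (inner ℂ x ((star V + γ • V) x))‖ ≤ M) :
    ‖Polynomial.aeval (star V + γ • V) p‖ ≤ (1 + ‖γ‖) * M := by
  obtain ⟨D, hD, hDn⟩ := h23_exists_D V hV γ hγ
  have hV' : adjoint V * V = 1 := by rw [← ContinuousLinearMap.star_eq_adjoint]; exact hV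
  have hVV' : V * adjoint V ≠ 1 := by rw [← ContinuousLinearMap.star_eq_adjoint]; exact hVV
  have hM' : ∀ x : H, ‖x‖ = 1 → ‖p.eval (inner ℂ x ((adjoint V + γ • V) x))‖ ≤ M := by
    intro x hx
    rw [← ContinuousLinearMap.star_eq_adjoint]
    exact hM x hx
  have hcurve : ∀ z : ℂ, ‖z‖ = 1 → ‖p.eval (star z + γ * z)‖ ≤ M :=
    H95.sup_transfer V hV' hVV' γ p M hM'
  have hN : ‖Polynomial.aeval (Nmat V γ) p‖ ≤ M :=
    h23_norm_aeval_unitary_le (Umat_unitary V hV) γ p M hcurve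
  obtain ⟨i1, i2⟩ := intertwine V hV γ D hD
  have hψ := psi_aeval (star V + γ • V) (D * star V) (Nmat V γ) i1 i2 p
  have hV1 : ‖star V‖ ≤ 1 := by rw [norm_star]; exact h23_norm_le_one V hV
  have hE : ‖D * star V‖ ≤ ‖γ‖ := by
    calc ‖D * star V‖ ≤ ‖D‖ * ‖star V‖ := norm_mul_le _ _
      _ ≤ ‖γ‖ * 1 := mul_le_mul hDn hV1 (norm_nonneg _) (norm_nonneg _)
      _ = ‖γ‖ := mul_one _
  have h00 : ‖(Polynomial.aeval (Nmat V γ) p) 0 0‖ ≤ ‖Polynomial.aeval (Nmat V γ) p‖ :=
    CStarMatrix.norm_entry_le_norm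
  have h10 : ‖(Polynomial.aeval (Nmat V γ) p) 1 0‖ ≤ ‖Polynomial.aeval (Nmat V γ) p‖ :=
    CStarMatrix.norm_entry_le_norm
  calc ‖Polynomial.aeval (star V + γ • V) p‖
      = ‖(Polynomial.aeval (Nmat V γ) p) 0 0 -
          (D * star V) * (Polynomial.aeval (Nmat V γ) p) 1 0‖ := by rw [hψ]
    _ ≤ ‖(Polynomial.aeval (Nmat V γ) p) 0 0‖ +
          ‖(D * star V) * (Polynomial.aeval (Nmat V γ) p) 1 0‖ := norm_sub_le _ _
    _ ≤ ‖Polynomial.aeval (Nmat V γ) p‖ + ‖γ‖ * ‖Polynomial.aeval (Nmat V γ) p‖ := by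
        refine add_le_add h00 ((norm_mul_le _ _).trans ?_)
        exact mul_le_mul hE h10 (norm_nonneg _) (norm_nonneg _)
    _ = (1 + ‖γ‖) * ‖Polynomial.aeval (Nmat V γ) p‖ := by ring
    _ ≤ (1 + ‖γ‖) * M := mul_le_mul_of_nonneg_left hN (by positivity)

end Vale.Agent.Lib.P123.H94
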